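import Vale.Agent.P144G.Mass

/-!
The `H`-function of a spinor in an arbitrary finite set: existence and local relations.
-/

set_option linter.all false

namespace Vale.Agent.P144M.H

open Finset Vale.Agent.P144 Vale.Agent.P144.AL
open Vale.Agent.P144G (oi oi_nn oi_in oi_out alg)

/-- `Hs` on spins and `Hf` on faces is the `H`-function of the spinor, zero far away. -/
structure IsM (Λ : Finset Site) (A B C D Hs Hf : Site → ℝ) : Prop where
  a : ∀ i j : ℤ, Hs (i, j) - Hf (i, j) = A (i, j) ^ 2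
  b : ∀ i j : ℤ, Hs (i + 1, j) - Hf (i, j) = B (i, j) ^ 2
  c : ∀ i j : ℤ, Hs (i, j + 1) - Hf (i, j) = C (i, j) ^ 2
  d : ∀ i j : ℤ, Hs (i + 1, j + 1) - Hf (i, j) = D (i, j) ^ 2
  far : ∃ K : ℕ, ∀ v ∉ box K, Hs v = 0

/-- The flux through the edges to the outside. -/
noncomputable def kh (Λ : Finset Site) (u : Site → ℝ) (v : Site) : ℝ :=
  oi Λ (v.1 + 1, v.2) * (u v - u (v.1 + 1, v.2)) + oi Λ (v.1 - 1, v.2) * (u v - u (v.1 - 1, v.2)) +
    oi Λ (v.1, v.2 + 1) * (u v - u (v.1, v.2 + 1)) + oi Λ (v.1, v.2 - 1) * (u v - u (v.1, v.2 - 1))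

/-- Two sites at king distance at most one are corners of a face. -/
theorem king_face {x y : Site} (h1 : |x.1 - y.1| ≤ 1) (h2 : |x.2 - y.2| ≤ 1) :
    ∃ f, x ∈ cnr f ∧ y ∈ cnr f := by
  rw [abs_le] at h1 h2
  refine ⟨(min x.1 y.1, min x.2 y.2), ?_, ?_⟩ <;> rw [mem_cnr] <;> simp only [Prod.ext_iff] <;> lia

section

variable {Λ : Finset Site} {τ θ A B C D : Site → ℝ} (h : Spr Λ τ θ A B C D)

include h

/-- The `H`-function exists. -/
theorem exists_M : ∃ Hs Hf : Site → ℝ, IsM Λ A B C D Hs Hf := by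
  obtain ⟨M, hM⟩ : ∃ M : ℕ, Λ ⊆ box M := (H436.subset_box Λ).exists
  have hout : ∀ x : Site, (M:ℤ) < x.2 → x ∉ Λ := by
    intro x hx hxΛ
    have := hM hxΛ
    rw [H436.mem_box, abs_le, abs_le] at this
    lia
  obtain ⟨Hf, hHf⟩ : ∃ Hf : Site → ℝ, ∀ i j : ℤ, Hf (i, j) =
      ∑ y ∈ Finset.Ico j ((M:ℤ) + 1), (A (i, y + 1) ^ 2 - C (i, y) ^ 2) :=
    ⟨fun f => ∑ y ∈ Finset.Ico f.2 ((M:ℤ) + 1), (A (f.1, y + 1) ^ 2 - C (f.1, y) ^ 2),
      fun _ _ => rfl⟩
  have step : ∀ i j : ℤ, Hf (i, j) = Hf (i, j + 1) + A (i, j + 1) ^ 2 - C (i, j) ^ 2 := by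
    intro i j
    rw [hHf, hHf]
    by_cases hj : j < (M:ℤ) + 1
    · have : Finset.Ico j ((M:ℤ) + 1) = insert j (Finset.Ico (j + 1) ((M:ℤ) + 1)) := by
        ext y; simp only [mem_Ico, mem_insert]; lia
      rw [this, sum_insert (by simp)]
      ring
    · rw [Finset.Ico_eq_empty (by lia), Finset.Ico_eq_empty (by lia),
        h.zA i (j + 1) (hout _ (by simp only; lia)), h.zC i j (hout _ (by simp only; lia))]
      simp
  have high : ∀ i j : ℤ, (M:ℤ) < j → Hf (i, j) = 0 := by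
    intro i j hj
    rw [hHf, Finset.Ico_eq_empty (by lia)]
    simp
  have horz : ∀ i j : ℤ, Hf (i + 1, j) - Hf (i, j) = B (i, j) ^ 2 - A (i + 1, j) ^ 2 := by
    intro i j
    have key : ∀ n : ℕ, ∀ j : ℤ, (M:ℤ) + 1 - n ≤ j →
        Hf (i + 1, j) - Hf (i, j) = B (i, j) ^ 2 - A (i + 1, j) ^ 2 := by
      intro n
      induction n with
      | zero =>
        intro j hj
        rw [high _ _ (by lia), high _ _ (by lia), h.zB i j (hout _ (by simp only; lia)),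
          h.zA (i + 1) j (hout _ (by simp only; lia))]
        simp
      | succ n ih =>
        intro j hj
        by_cases hj' : (M:ℤ) + 1 - n ≤ j
        · exact ih j hj'
        · have e := ih (j + 1) (by lia)
          have e1 := step (i + 1) j
          have e2 := step i j
          have e3 := h.quadV i j
          have e4 := h.quadH i j
          linarith
    exact key ((M:ℤ) + 1 - j).toNat j (by lia)
  have hb : ∀ i j : ℤ, Hf (i + 1, j) + A (i + 1, j) ^ 2 - Hf (i, j) = B (i, j) ^ 2 := by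
    intro i j; linarith [horz i j]
  have hcc : ∀ i j : ℤ, Hf (i, j + 1) + A (i, j + 1) ^ 2 - Hf (i, j) = C (i, j) ^ 2 := by
    intro i j; linarith [step i j]
  have hd : ∀ i j : ℤ, Hf (i + 1, j + 1) + A (i + 1, j + 1) ^ 2 - Hf (i, j) = D (i, j) ^ 2 := by
    intro i j
    have e1 := hb i (j + 1)
    have e2 := step i j
    have e3 := h.quadV i j
    linarith
  refine ⟨fun v => Hf v + A v ^ 2, Hf, fun i j => by simp, hb, hcc, hd, M, fun v hv => ?_⟩
  have cor : ∀ f u : Site, u ∈ cnr f → u ∉ Λ → Hf u + A u ^ 2 = Hf f := by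
    rintro ⟨i, j⟩ u hu hΛ
    rcases mem_cnr.1 hu with rfl | rfl | rfl | rfl
    · rw [h.zA i j hΛ]; ring
    · have := hb i j
      rw [h.zB i j hΛ] at this
      simp only; linarith
    · have := hcc i j
      rw [h.zC i j hΛ] at this
      simp only; linarith
    · have := hd i j
      rw [h.zD i j hΛ] at this
      simp only; linarith
  have nb : ∀ x : Site, ((M:ℤ) < x.1 ∨ x.1 < -(M:ℤ) ∨ x.2 < -(M:ℤ)) → x ∉ Λ := by
    intro x hx hxΛ
    have := hM hxΛ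
    rw [H436.mem_box, abs_le, abs_le] at this
    lia
  have top : ∀ i j : ℤ, (M:ℤ) < j → Hf (i, j) + A (i, j) ^ 2 = 0 := fun i j hj => by
    rw [high _ _ hj, h.zA _ _ (hout _ hj)]; ring
  have col : ∀ i : ℤ, ((M:ℤ) < i ∨ i < -(M:ℤ)) → ∀ n : ℕ, ∀ j : ℤ, (M:ℤ) + 1 - n ≤ j →
      Hf (i, j) + A (i, j) ^ 2 = 0 := by
    intro i hi n
    induction n with
    | zero => exact fun j hj => top i j (by lia)
    | succ n ih =>
      intro j hj
      by_cases hj' : (M:ℤ) + 1 - n ≤ j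
      · exact ih j hj'
      · rw [cor (i, j) (i, j) (by simp [mem_cnr]) (nb _ (by simp only; lia)),
          ← cor (i, j) (i, j + 1) (by simp [mem_cnr]) (nb _ (by simp only; lia))]
        exact ih (j + 1) (by lia)
  have row : ∀ j : ℤ, j < -(M:ℤ) → ∀ n : ℕ, ∀ i : ℤ, (M:ℤ) + 1 - n ≤ i →
      Hf (i, j) + A (i, j) ^ 2 = 0 := by
    intro j hj n
    induction n with
    | zero => exact fun i hi => col i (by lia) ((M:ℤ) + 1 - j).toNat j (by lia)
    | succ n ih =>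
      intro i hi
      by_cases hi' : (M:ℤ) + 1 - n ≤ i
      · exact ih i hi'
      · rw [cor (i, j) (i, j) (by simp [mem_cnr]) (nb _ (by simp only; lia)),
          ← cor (i, j) (i + 1, j) (by simp [mem_cnr]) (nb _ (by simp only; lia))]
        exact ih (i + 1) (by lia)
  obtain ⟨i, j⟩ := v
  rw [H436.mem_box, abs_le, abs_le] at hv
  simp only at hv ⊢
  by_cases h1 : (M:ℤ) < i ∨ i < -(M:ℤ)
  · exact col i h1 ((M:ℤ) + 1 - j).toNat j (by lia)
  · by_cases h2 : (M:ℤ) < j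
    · exact top i j h2
    · exact row j (by lia) ((M:ℤ) + 1 - i).toNat i (by lia)

variable {Hs Hf : Site → ℝ} (hH : IsM Λ A B C D Hs Hf)

include hH

/-- A face with a corner outside has the value of that corner. -/
theorem Hf_eq {f v : Site} (hv : v ∈ cnr f) (hΛ : v ∉ Λ) : Hf f = Hs v := by
  obtain ⟨i, j⟩ := f
  rcases mem_cnr.1 hv with rfl | rfl | rfl | rfl
  · have := hH.a i j
    rw [h.zA i j hΛ] at this
    linarith
  · have := hH.b i j
    rw [h.zB i j hΛ] at this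
    simp only; linarith
  · have := hH.c i j
    rw [h.zC i j hΛ] at this
    simp only; linarith
  · have := hH.d i j
    rw [h.zD i j hΛ] at this
    simp only; linarith

theorem Hf_le (f v : Site) (hv : v ∈ cnr f) : Hf f ≤ Hs v := by
  obtain ⟨i, j⟩ := f
  rcases mem_cnr.1 hv with rfl | rfl | rfl | rfl
  · have := hH.a i j; have := sq_nonneg (A (i, j)); linarith
  · have := hH.b i j; have := sq_nonneg (B (i, j)); simp only; linarith
  · have := hH.c i j; have := sq_nonneg (C (i, j)); simp only; linarith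
  · have := hH.d i j; have := sq_nonneg (D (i, j)); simp only; linarith

/-- The values outside are below the values at the neighbours. -/
theorem out_le {x v : Site} (hx : x ∉ Λ) (h1 : |x.1 - v.1| ≤ 1) (h2 : |x.2 - v.2| ≤ 1) :
    Hs x ≤ Hs v := by
  obtain ⟨f, a1, a2⟩ := king_face h1 h2
  rw [← Hf_eq h hH a1 hx]
  exact Hf_le h hH f v a2

/-- `Hs` is constant along moves of a king outside. -/
theorem out_eq {x y : Site} (hx : x ∉ Λ) (hy : y ∉ Λ) (h1 : |x.1 - y.1| ≤ 1)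
    (h2 : |x.2 - y.2| ≤ 1) : Hs x = Hs y :=
  le_antisymm (out_le h hH hx h1 h2)
    (out_le h hH hy (by rwa [abs_sub_comm]) (by rwa [abs_sub_comm]))

/-- `Hs` vanishes on columns of the complement that go to infinity. -/
theorem zero_col {i j : ℤ} (hc : (∀ y, j ≤ y → ((i, y) : Site) ∉ Λ) ∨
    ∀ y, y ≤ j → ((i, y) : Site) ∉ Λ) : Hs (i, j) = 0 := by
  obtain ⟨K, hK⟩ := hH.far
  rcases hc with hc | hc
  · have key : ∀ n : ℕ, Hs (i, j) = Hs (i, j + n) := by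
      intro n
      induction n with
      | zero => simp
      | succ n ih =>
        rw [ih]
        exact out_eq h hH (hc _ (by lia)) (hc _ (by lia)) (by simp) (by simp)
    rw [key (K + 1 - j).toNat]
    refine hK _ fun hh => ?_
    rw [H436.mem_box, abs_le, abs_le] at hh
    simp only at hh
    lia
  · have key : ∀ n : ℕ, Hs (i, j) = Hs (i, j - n) := by
      intro n
      induction n with
      | zero => simp
      | succ n ih =>
        rw [ih]
        exact out_eq h hH (hc _ (by lia)) (hc _ (by lia)) (by simp) (by simp)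
    rw [key (K + 1 + j).toNat]
    refine hK _ fun hh => ?_
    rw [H436.mem_box, abs_le, abs_le] at hh
    simp only at hh
    lia

/-- `Hs` vanishes outside every diamond that contains the set. -/
theorem zero_dia {n : ℕ} (hΛ : Λ ⊆ dia n) {x : Site} (hx : x ∉ dia n) : Hs x = 0 := by
  obtain ⟨i, j⟩ := x
  refine zero_col h hH ?_
  rcases colConvex_dia n i j hx with h1 | h1
  · exact Or.inl fun y hy hh => h1 y hy (hΛ hh)
  · exact Or.inr fun y hy hh => h1 y hy (hΛ hh)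

/-- `Hs` vanishes outside every box that contains the set. -/
theorem zero_box {n : ℕ} (hΛ : Λ ⊆ box n) {x : Site} (hx : x ∉ box n) : Hs x = 0 := by
  obtain ⟨i, j⟩ := x
  refine zero_col h hH ?_
  rw [H436.mem_box, abs_le, abs_le] at hx
  simp only at hx
  rcases le_total 0 j with h1 | h1
  · refine Or.inl fun y hy hh => ?_
    have := hΛ hh
    rw [H436.mem_box, abs_le, abs_le] at this
    simp only at this
    lia
  · refine Or.inr fun y hy hh => ?_
    have := hΛ hh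
    rw [H436.mem_box, abs_le, abs_le] at this
    simp only at this
    lia

/-- `Hf` vanishes outside every box that contains the set. -/
theorem zerof_box {n : ℕ} (hΛ : Λ ⊆ box n) {x : Site} (hx : x ∉ box n) : Hf x = 0 := by
  rw [Hf_eq h hH (v := x) (by simp [mem_cnr]) fun hh => hx (hΛ hh), zero_box h hH hΛ hx]

theorem absN {i j : ℤ} (hv : ((i, j + 1) : Site) ∉ Λ) :
    B (i - 1, j) = θ (i - 1, j) * A (i, j) ∧ Hs (i, j + 1) - Hs (i, j) = -A (i, j) ^ 2 := by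
  have e1 := h.H0 (i - 1) j (by
    rw [sub_add_cancel, mem_ver]
    exact fun hh => hv hh.2)
  rw [sub_add_cancel] at e1
  refine ⟨e1.1, ?_⟩
  rw [← Hf_eq h hH (f := (i, j)) (by simp [mem_cnr]) hv]
  linarith [hH.a i j]

theorem absS {i j : ℤ} (hv : ((i, j - 1) : Site) ∉ Λ) :
    D (i - 1, j - 1) = -(θ (i - 1, j - 1) * C (i, j - 1)) ∧
      Hs (i, j - 1) - Hs (i, j) = -C (i, j - 1) ^ 2 := by
  have e1 := h.H0 (i - 1) (j - 1) (by
    rw [sub_add_cancel, mem_ver]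
    exact fun hh => hv hh.1)
  rw [sub_add_cancel] at e1
  refine ⟨e1.2, ?_⟩
  have e2 := hH.c i (j - 1)
  rw [sub_add_cancel, Hf_eq h hH (v := (i, j - 1)) (by simp [mem_cnr]) hv] at e2
  linarith

theorem absE {i j : ℤ} (hv : ((i + 1, j) : Site) ∉ Λ) :
    C (i, j - 1) = A (i, j) ∧ Hs (i + 1, j) - Hs (i, j) = -A (i, j) ^ 2 := by
  have e1 := h.V0 i (j - 1) (by
    rw [sub_add_cancel, mem_hor]
    exact fun hh => hv hh.2)
  rw [sub_add_cancel] at e1
  refine ⟨e1.1, ?_⟩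
  rw [← Hf_eq h hH (f := (i, j)) (by simp [mem_cnr]) hv]
  linarith [hH.a i j]

theorem absW {i j : ℤ} (hv : ((i - 1, j) : Site) ∉ Λ) :
    D (i - 1, j - 1) = B (i - 1, j) ∧ Hs (i - 1, j) - Hs (i, j) = -B (i - 1, j) ^ 2 := by
  have e1 := h.V0 (i - 1) (j - 1) (by
    rw [sub_add_cancel, mem_hor]
    exact fun hh => hv hh.1)
  rw [sub_add_cancel] at e1
  refine ⟨e1.2, ?_⟩
  have e2 := hH.b (i - 1) j
  rw [sub_add_cancel, Hf_eq h hH (v := (i - 1, j)) (by simp [mem_cnr]) hv] at e2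
  linarith

theorem kh_nn (v : Site) : 0 ≤ kh Λ Hs v := by
  have k : ∀ x : Site, |x.1 - v.1| ≤ 1 → |x.2 - v.2| ≤ 1 → 0 ≤ oi Λ x * (Hs v - Hs x) := by
    intro x h1 h2
    by_cases hx : x ∈ Λ
    · rw [oi_in hx, zero_mul]
    · rw [oi_out hx, one_mul]
      linarith [out_le h hH hx h1 h2]
  have k1 := k (v.1 + 1, v.2) (by simp) (by simp)
  have k2 := k (v.1 - 1, v.2) (by simp) (by simp)
  have k3 := k (v.1, v.2 + 1) (by simp) (by simp)
  have k4 := k (v.1, v.2 - 1) (by simp) (by simp)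
  unfold kh
  linarith

/-- The increments at an outer site. -/
theorem inc_le_lap {v w : Site} (hv : v ∉ Λ)
    (hw : w = (v.1 + 1, v.2) ∨ w = (v.1 - 1, v.2) ∨ w = (v.1, v.2 + 1) ∨ w = (v.1, v.2 - 1)) :
    Hs w - Hs v ≤ lap Hs v := by
  have h1 := out_le h hH (v := (v.1 + 1, v.2)) hv (by simp) (by simp)
  have h2 := out_le h hH (v := (v.1 - 1, v.2)) hv (by simp) (by simp)
  have h3 := out_le h hH (v := (v.1, v.2 + 1)) hv (by simp) (by simp)
  have h4 := out_le h hH (v := (v.1, v.2 - 1)) hv (by simp) (by simp)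
  unfold lap
  rcases hw with rfl | rfl | rfl | rfl <;> linarith

theorem lap_out {v : Site} (hv : v ∉ Λ) : 0 ≤ lap Hs v := by
  have h1 := out_le h hH (v := (v.1 + 1, v.2)) hv (by simp) (by simp)
  linarith [inc_le_lap h hH hv (Or.inl rfl)]

/-- Differences of `Hs` along an edge in terms of the values at the first end. -/
theorem dN {i j : ℤ} (he : ((i, j) : Site) ∈ ver Λ) :
    Hs (i, j + 1) - Hs (i, j) = A (i, j) ^ 2 + B (i - 1, j) ^ 2 -
      2 * √2 * (θ (i - 1, j) * (A (i, j) * B (i - 1, j))) := by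
  have e1 := h.H (i - 1) j (by rwa [sub_add_cancel])
  rw [sub_add_cancel] at e1
  have e2 := hH.c i j
  have e3 := hH.a i j
  have e4 : C (i, j) = √2 * A (i, j) - θ (i - 1, j) * B (i - 1, j) := by
    rw [e1.1]; linear_combination (√2 * A (i, j) - C (i, j)) * h.θ2 (i - 1, j)
  have e5 : Hs (i, j + 1) - Hs (i, j) = C (i, j) ^ 2 - A (i, j) ^ 2 := by linarith
  rw [e5, e4]
  linear_combination (A (i, j) ^ 2) * sqrt2_sq + (B (i - 1, j) ^ 2) * h.θ2 (i - 1, j)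

theorem dS {i j : ℤ} (he : ((i, j - 1) : Site) ∈ ver Λ) :
    Hs (i, j - 1) - Hs (i, j) = C (i, j - 1) ^ 2 + D (i - 1, j - 1) ^ 2 +
      2 * √2 * (θ (i - 1, j - 1) * (C (i, j - 1) * D (i - 1, j - 1))) := by
  have e1 := h.H (i - 1) (j - 1) (by rwa [sub_add_cancel])
  rw [sub_add_cancel] at e1
  have e2 := hH.c i (j - 1)
  have e3 := hH.a i (j - 1)
  rw [sub_add_cancel] at e2
  have e4 : A (i, j - 1) = √2 * C (i, j - 1) + θ (i - 1, j - 1) * D (i - 1, j - 1) := by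
    rw [e1.2]; linear_combination (√2 * C (i, j - 1) - A (i, j - 1)) * h.θ2 (i - 1, j - 1)
  have e5 : Hs (i, j - 1) - Hs (i, j) = A (i, j - 1) ^ 2 - C (i, j - 1) ^ 2 := by linarith
  rw [e5, e4]
  linear_combination (C (i, j - 1) ^ 2) * sqrt2_sq + (D (i - 1, j - 1) ^ 2) * h.θ2 (i - 1, j - 1)

theorem dE {i j : ℤ} (he : ((i, j) : Site) ∈ hor Λ) :
    Hs (i + 1, j) - Hs (i, j) = A (i, j) ^ 2 + C (i, j - 1) ^ 2 -
      2 * √2 * (A (i, j) * C (i, j - 1)) := by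
  have e1 := h.V i (j - 1) (by rwa [sub_add_cancel])
  rw [sub_add_cancel] at e1
  have e2 := hH.b i j
  have e3 := hH.a i j
  have e4 : B (i, j) = τ (i, j - 1) * (√2 * A (i, j) - C (i, j - 1)) := by
    rw [e1.1]; linear_combination (-B (i, j)) * h.τ2 (i, j - 1)
  have e5 : Hs (i + 1, j) - Hs (i, j) = B (i, j) ^ 2 - A (i, j) ^ 2 := by linarith
  rw [e5, e4]
  linear_combination (A (i, j) ^ 2) * sqrt2_sq + (√2 * A (i, j) - C (i, j - 1)) ^ 2 * h.τ2 (i, j - 1)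

theorem dW {i j : ℤ} (he : ((i - 1, j) : Site) ∈ hor Λ) :
    Hs (i - 1, j) - Hs (i, j) = B (i - 1, j) ^ 2 + D (i - 1, j - 1) ^ 2 -
      2 * √2 * (B (i - 1, j) * D (i - 1, j - 1)) := by
  have e1 := h.V (i - 1) (j - 1) (by rwa [sub_add_cancel])
  rw [sub_add_cancel] at e1
  have e2 := hH.b (i - 1) j
  have e3 := hH.a (i - 1) j
  rw [sub_add_cancel] at e2
  have e4 : A (i - 1, j) = τ (i - 1, j - 1) * (√2 * B (i - 1, j) - D (i - 1, j - 1)) := by
    rw [e1.2]; linear_combination (-A (i - 1, j)) * h.τ2 (i - 1, j - 1)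
  have e5 : Hs (i - 1, j) - Hs (i, j) = A (i - 1, j) ^ 2 - B (i - 1, j) ^ 2 := by linarith
  rw [e5, e4]
  linear_combination (B (i - 1, j) ^ 2) * sqrt2_sq +
    (√2 * B (i - 1, j) - D (i - 1, j - 1)) ^ 2 * h.τ2 (i - 1, j - 1)

/-- The Laplacian of `Hs` at a site all of whose neighbours are in `Λ`. -/
theorem lap_int {i j : ℤ} (hv : ((i, j) : Site) ∈ Λ) (hN : ((i, j + 1) : Site) ∈ Λ)
    (hS : ((i, j - 1) : Site) ∈ Λ) (hE : ((i + 1, j) : Site) ∈ Λ) (hW : ((i - 1, j) : Site) ∈ Λ) :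
    lap Hs (i, j) = 2 * (A (i, j) ^ 2 + B (i - 1, j) ^ 2 + C (i, j - 1) ^ 2 + D (i - 1, j - 1) ^ 2) -
      2 * √2 * (θ (i - 1, j) * (A (i, j) * B (i - 1, j)) -
        θ (i - 1, j - 1) * (C (i, j - 1) * D (i - 1, j - 1)) + A (i, j) * C (i, j - 1) +
        B (i - 1, j) * D (i - 1, j - 1)) := by
  have e1 := dN h hH (mem_ver.2 ⟨hv, hN⟩)
  have e2 := dS h hH (i := i) (j := j) (mem_ver.2 ⟨hS, by simpa using hv⟩)
  have e3 := dE h hH (mem_hor.2 ⟨hv, hE⟩)
  have e4 := dW h hH (i := i) (j := j) (mem_hor.2 ⟨hW, by simpa using hv⟩)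
  unfold lap
  simp only
  linear_combination e1 + e2 + e3 + e4

/-- Lower bound at a site where a spin is inserted. -/
theorem lap_int_lower {i j : ℤ} (hv : ((i, j) : Site) ∈ Λ) (hN : ((i, j + 1) : Site) ∈ Λ)
    (hS : ((i, j - 1) : Site) ∈ Λ) (hE : ((i + 1, j) : Site) ∈ Λ) (hW : ((i - 1, j) : Site) ∈ Λ) :
    -(2 * √2 - 2) * (A (i, j) ^ 2 + B (i - 1, j) ^ 2 + C (i, j - 1) ^ 2 + D (i - 1, j - 1) ^ 2) ≤
      lap Hs (i, j) := by
  rw [lap_int h hH hv hN hS hE hW]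
  exact quad_lower _ _ _ _ _ _ (h.θ2 _) (h.θ2 _)

/-- The Laplacian of `Hs` at a site where no spin is inserted. -/
theorem lap_low {i j : ℤ} (hv : ((i, j) : Site) ∈ Λ) (hθ : θ (i - 1, j) = θ (i - 1, j - 1)) :
    0 ≤ lap Hs (i, j) + 1 / 5 * kh Λ Hs (i, j) := by
  have t2 := h.θ2 (i - 1, j)
  have key := alg (a := A (i, j)) (b := θ (i - 1, j) * B (i - 1, j)) (c := C (i, j - 1))
    (d := θ (i - 1, j) * D (i - 1, j - 1))
    (n := Hs (i, j + 1) - Hs (i, j) + 1 / 5 * (oi Λ (i, j + 1) * (Hs (i, j) - Hs (i, j + 1))))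
    (s := Hs (i, j - 1) - Hs (i, j) + 1 / 5 * (oi Λ (i, j - 1) * (Hs (i, j) - Hs (i, j - 1))))
    (e := Hs (i + 1, j) - Hs (i, j) + 1 / 5 * (oi Λ (i + 1, j) * (Hs (i, j) - Hs (i + 1, j))))
    (w := Hs (i - 1, j) - Hs (i, j) + 1 / 5 * (oi Λ (i - 1, j) * (Hs (i, j) - Hs (i - 1, j)))) ?_ ?_ ?_ ?_
  · unfold lap kh
    simp only
    linarith
  · by_cases hn : ((i, j + 1) : Site) ∈ Λ
    · left
      rw [oi_in hn, dN h hH (mem_ver.2 ⟨hv, hn⟩)]
      linear_combination (-B (i - 1, j) ^ 2) * t2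
    · right
      obtain ⟨e1, e2⟩ := absN h hH hn
      rw [oi_out hn, e1]
      exact ⟨by linear_combination A (i, j) * t2, by linear_combination (4 / 5) * e2⟩
  · by_cases hn : ((i, j - 1) : Site) ∈ Λ
    · left
      rw [oi_in hn, dS h hH (i := i) (j := j) (mem_ver.2 ⟨hn, by simpa using hv⟩), ← hθ]
      linear_combination (-D (i - 1, j - 1) ^ 2) * t2
    · right
      obtain ⟨e1, e2⟩ := absS h hH hn
      rw [oi_out hn, e1, ← hθ]
      exact ⟨by linear_combination (-C (i, j - 1)) * t2, by linear_combination (4 / 5) * e2⟩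
  · by_cases hn : ((i + 1, j) : Site) ∈ Λ
    · left
      rw [oi_in hn, dE h hH (mem_hor.2 ⟨hv, hn⟩)]
      ring
    · right
      obtain ⟨e1, e2⟩ := absE h hH hn
      rw [oi_out hn]
      exact ⟨e1, by linear_combination (4 / 5) * e2⟩
  · by_cases hn : ((i - 1, j) : Site) ∈ Λ
    · left
      rw [oi_in hn, dW h hH (i := i) (j := j) (mem_hor.2 ⟨hn, by simpa using hv⟩)]
      linear_combination (-B (i - 1, j) ^ 2 - D (i - 1, j - 1) ^ 2 +
        2 * √2 * (B (i - 1, j) * D (i - 1, j - 1))) * t2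
    · right
      obtain ⟨e1, e2⟩ := absW h hH hn
      rw [oi_out hn, e1]
      exact ⟨rfl, by linear_combination (4 / 5) * e2 + (4 / 5) * B (i - 1, j) ^ 2 * t2⟩

/-- Differences of `Hf` between a face and its neighbours, in terms of the values at the face. -/
theorem fN {i j : ℤ} (he : ((i, j + 1) : Site) ∈ hor Λ) :
    Hf (i, j + 1) - Hf (i, j) = -(C (i, j) ^ 2 + D (i, j) ^ 2) -
      2 * √2 * (τ (i, j) * (C (i, j) * D (i, j))) := by
  have e1 := h.V i j he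
  have e2 := hH.c i j
  have e3 := hH.a i (j + 1)
  have e4 : A (i, j + 1) = √2 * C (i, j) + τ (i, j) * D (i, j) := by
    rw [e1.2, e1.1]
    linear_combination (-A (i, j + 1)) * sqrt2_sq + A (i, j + 1) * h.τ2 (i, j)
  have e5 : Hf (i, j + 1) - Hf (i, j) = C (i, j) ^ 2 - A (i, j + 1) ^ 2 := by linarith
  rw [e5, e4]
  linear_combination (-(C (i, j) ^ 2)) * sqrt2_sq - (D (i, j) ^ 2) * h.τ2 (i, j)

theorem fS {i j : ℤ} (he : ((i, j) : Site) ∈ hor Λ) :
    Hf (i, j - 1) - Hf (i, j) = -(A (i, j) ^ 2 + B (i, j) ^ 2) +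
      2 * √2 * (τ (i, j - 1) * (A (i, j) * B (i, j))) := by
  have e1 := h.V i (j - 1) (by rwa [sub_add_cancel])
  have e2 := hH.c i (j - 1)
  have e3 := hH.a i j
  rw [sub_add_cancel] at e1 e2
  have e5 : Hf (i, j - 1) - Hf (i, j) = A (i, j) ^ 2 - C (i, j - 1) ^ 2 := by linarith
  rw [e5, e1.1]
  linear_combination (-(A (i, j) ^ 2)) * sqrt2_sq - (B (i, j) ^ 2) * h.τ2 (i, j - 1)

theorem fE {i j : ℤ} (he : ((i + 1, j) : Site) ∈ ver Λ) :
    Hf (i + 1, j) - Hf (i, j) = -(B (i, j) ^ 2 + D (i, j) ^ 2) +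
      2 * √2 * (B (i, j) * D (i, j)) := by
  have e1 := h.H i j he
  have e2 := hH.b i j
  have e3 := hH.a (i + 1) j
  have e4 : A (i + 1, j) = θ (i, j) * (√2 * B (i, j) - D (i, j)) := by
    rw [e1.2, e1.1]
    linear_combination (-(θ (i, j) ^ 2 * A (i + 1, j))) * sqrt2_sq - A (i + 1, j) * h.θ2 (i, j)
  have e5 : Hf (i + 1, j) - Hf (i, j) = B (i, j) ^ 2 - A (i + 1, j) ^ 2 := by linarith
  rw [e5, e4]
  linear_combination (-(√2 * B (i, j) - D (i, j)) ^ 2) * h.θ2 (i, j) - B (i, j) ^ 2 * sqrt2_sq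

theorem fW {i j : ℤ} (he : ((i, j) : Site) ∈ ver Λ) :
    Hf (i - 1, j) - Hf (i, j) = -(A (i, j) ^ 2 + C (i, j) ^ 2) +
      2 * √2 * (A (i, j) * C (i, j)) := by
  have e1 := h.H (i - 1) j (by rwa [sub_add_cancel])
  have e2 := hH.b (i - 1) j
  have e3 := hH.a i j
  rw [sub_add_cancel] at e1 e2
  have e5 : Hf (i - 1, j) - Hf (i, j) = A (i, j) ^ 2 - B (i - 1, j) ^ 2 := by linarith
  rw [e5, e1.1]
  linear_combination (-(√2 * A (i, j) - C (i, j)) ^ 2) * h.θ2 (i - 1, j) - A (i, j) ^ 2 * sqrt2_sq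

/-- The Laplacian of `Hf` at an inner face. -/
theorem lapf {i j : ℤ} (h1 : ((i, j) : Site) ∈ Λ) (h2 : ((i + 1, j) : Site) ∈ Λ)
    (h3 : ((i, j + 1) : Site) ∈ Λ) (h4 : ((i + 1, j + 1) : Site) ∈ Λ) :
    lap Hf (i, j) = -(2 * (B (i, j) ^ 2 + A (i, j) ^ 2 + D (i, j) ^ 2 + C (i, j) ^ 2) -
      2 * √2 * (τ (i, j - 1) * (B (i, j) * A (i, j)) - τ (i, j) * (D (i, j) * C (i, j)) +
        B (i, j) * D (i, j) + A (i, j) * C (i, j))) := by
  have e1 := fN h hH (mem_hor.2 ⟨h3, h4⟩)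
  have e2 := fS h hH (mem_hor.2 ⟨h1, h2⟩)
  have e3 := fE h hH (mem_ver.2 ⟨h2, h4⟩)
  have e4 := fW h hH (mem_ver.2 ⟨h1, h3⟩)
  unfold lap
  simp only
  linear_combination e1 + e2 + e3 + e4

/-- `Hf` is superharmonic at inner faces without a disorder. -/
theorem lapf_nonpos {i j : ℤ} (h1 : ((i, j) : Site) ∈ Λ) (h2 : ((i + 1, j) : Site) ∈ Λ)
    (h3 : ((i, j + 1) : Site) ∈ Λ) (h4 : ((i + 1, j + 1) : Site) ∈ Λ)
    (hτ : τ (i, j) = τ (i, j - 1)) : lap Hf (i, j) ≤ 0 := by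
  rw [lapf h hH h1 h2 h3 h4, hτ]
  have := quad_nonneg (B (i, j)) (A (i, j)) (D (i, j)) (C (i, j)) (τ (i, j - 1)) (h.τ2 _)
  linarith

/-- Upper bound at any inner face. -/
theorem lapf_upper {i j : ℤ} (h1 : ((i, j) : Site) ∈ Λ) (h2 : ((i + 1, j) : Site) ∈ Λ)
    (h3 : ((i, j + 1) : Site) ∈ Λ) (h4 : ((i + 1, j + 1) : Site) ∈ Λ) :
    lap Hf (i, j) ≤ (2 * √2 - 2) * (A (i, j) ^ 2 + B (i, j) ^ 2 + C (i, j) ^ 2 + D (i, j) ^ 2) := by
  rw [lapf h hH h1 h2 h3 h4]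
  have := quad_lower (B (i, j)) (A (i, j)) (D (i, j)) (C (i, j)) (τ (i, j - 1)) (τ (i, j))
    (h.τ2 _) (h.τ2 _)
  linarith

/-- The mass of `Hs` at the corners of a disorder controls the values there. -/
theorem branch_face {i j : ℤ}
    (hb : ∀ x y : ℤ, i - 1 ≤ x → x ≤ i + 2 → j - 1 ≤ y → y ≤ j + 2 → ((x, y) : Site) ∈ Λ)
    (t1 : θ (i - 1, j) = θ (i - 1, j - 1)) (t2 : θ (i, j) = θ (i, j - 1))
    (t3 : θ (i - 1, j + 1) = θ (i - 1, j)) (t4 : θ (i, j + 1) = θ (i, j))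
    (hτ : τ (i, j) = -τ (i, j - 1)) :
    (6 - 4 * √2) * sqF A B C D (i, j) ≤
      lap Hs (i, j) + lap Hs (i + 1, j) + lap Hs (i, j + 1) + lap Hs (i + 1, j + 1) := by
  have mem : ∀ x y : ℤ, i - 1 ≤ x → x ≤ i + 2 → j - 1 ≤ y → y ≤ j + 2 → ((x, y) : Site) ∈ Λ := hb
  have l1 := lap_int h hH (i := i) (j := j) (mem _ _ (by lia) (by lia) (by lia) (by lia))
    (mem _ _ (by lia) (by lia) (by lia) (by lia)) (mem _ _ (by lia) (by lia) (by lia) (by lia))
    (mem _ _ (by lia) (by lia) (by lia) (by lia)) (mem _ _ (by lia) (by lia) (by lia) (by lia))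
  have l2 := lap_int h hH (i := i + 1) (j := j) (mem _ _ (by lia) (by lia) (by lia) (by lia))
    (mem _ _ (by lia) (by lia) (by lia) (by lia)) (mem _ _ (by lia) (by lia) (by lia) (by lia))
    (mem _ _ (by lia) (by lia) (by lia) (by lia)) (mem _ _ (by lia) (by lia) (by lia) (by lia))
  have l3 := lap_int h hH (i := i) (j := j + 1) (mem _ _ (by lia) (by lia) (by lia) (by lia))
    (mem _ _ (by lia) (by lia) (by lia) (by lia)) (mem _ _ (by lia) (by lia) (by lia) (by lia))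
    (mem _ _ (by lia) (by lia) (by lia) (by lia)) (mem _ _ (by lia) (by lia) (by lia) (by lia))
  have l4 := lap_int h hH (i := i + 1) (j := j + 1) (mem _ _ (by lia) (by lia) (by lia) (by lia))
    (mem _ _ (by lia) (by lia) (by lia) (by lia)) (mem _ _ (by lia) (by lia) (by lia) (by lia))
    (mem _ _ (by lia) (by lia) (by lia) (by lia)) (mem _ _ (by lia) (by lia) (by lia) (by lia))
  rw [← t1] at l1
  rw [add_sub_cancel_right, ← t2] at l2
  rw [add_sub_cancel_right, t3] at l3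
  rw [add_sub_cancel_right, add_sub_cancel_right, t4] at l4
  rw [(quad_id _ _ _ _ _ (h.θ2 _)).1] at l1
  rw [(quad_id _ _ _ _ _ (h.θ2 _)).2] at l2
  rw [(quad_id _ _ _ _ _ (h.θ2 _)).2] at l3
  rw [(quad_id _ _ _ _ _ (h.θ2 _)).1] at l4
  have eN := h.V i j (mem_hor.2 ⟨mem _ _ (by lia) (by lia) (by lia) (by lia),
    mem _ _ (by lia) (by lia) (by lia) (by lia)⟩)
  have eS := h.V i (j - 1) (by
    rw [sub_add_cancel]
    exact mem_hor.2 ⟨mem _ _ (by lia) (by lia) (by lia) (by lia),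
      mem _ _ (by lia) (by lia) (by lia) (by lia)⟩)
  have eE := h.H i j (mem_ver.2 ⟨mem _ _ (by lia) (by lia) (by lia) (by lia),
    mem _ _ (by lia) (by lia) (by lia) (by lia)⟩)
  have eW := h.H (i - 1) j (by
    rw [sub_add_cancel]
    exact mem_ver.2 ⟨mem _ _ (by lia) (by lia) (by lia) (by lia),
      mem _ _ (by lia) (by lia) (by lia) (by lia)⟩)
  rw [sub_add_cancel] at eS eW
  have q2 := sqrt2_sq
  have th1 := h.θ2 (i - 1, j)
  have th2 := h.θ2 (i, j)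
  have ta := h.τ2 (i, j)
  -- first corner
  have f1 : √2 * A (i, j) - (θ (i - 1, j) * B (i - 1, j) + C (i, j - 1)) =
      -(C (i, j) * (-1) + τ (i, j - 1) * B (i, j) * (-1) + √2 * A (i, j)) := by
    rw [eW.1, eS.1]
    linear_combination (-(√2 * A (i, j) - C (i, j))) * th1
  have f2 : √2 * B (i, j) - (θ (i, j) * A (i + 1, j) + D (i, j - 1)) =
      D (i, j) + τ (i, j - 1) * A (i, j) - √2 * B (i, j) := by
    rw [eS.2, eE.1, eE.2]
    linear_combination (θ (i, j) * A (i + 1, j)) * q2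
  have f3 : √2 * C (i, j) - (A (i, j + 1) - θ (i - 1, j) * D (i - 1, j)) =
      A (i, j) - τ (i, j) * D (i, j) - √2 * C (i, j) := by
    rw [eW.2, eN.1, eN.2]
    linear_combination (-(√2 * (√2 * A (i, j + 1) - τ (i, j) * B (i, j + 1)) - A (i, j))) * th1 +
      A (i, j + 1) * q2 - A (i, j + 1) * ta
  have f4 : √2 * D (i, j) - (B (i, j + 1) - θ (i, j) * C (i + 1, j)) =
      B (i, j) - τ (i, j) * C (i, j) - √2 * D (i, j) := by
    have g1 : B (i, j + 1) = √2 * D (i, j) + τ (i, j) * C (i, j) := by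
      rw [eN.1, eN.2]
      linear_combination (-(B (i, j + 1))) * q2 + B (i, j + 1) * ta
    have g2 : θ (i, j) * C (i + 1, j) = B (i, j) - √2 * D (i, j) := by
      rw [eE.1, eE.2]
      linear_combination (-(θ (i, j) * C (i + 1, j))) * q2
    rw [g1, g2]; ring
  rw [f1] at l1
  rw [f2] at l2
  rw [f3, hτ] at l3
  rw [f4, hτ] at l4
  have key := four_cycle (A (i, j)) (B (i, j)) (C (i, j)) (D (i, j)) (τ (i, j - 1)) (h.τ2 _)
  unfold sqF
  rw [l1, l2, l3, l4]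
  refine key.trans (le_of_sub_nonneg ?_)
  have e : (-(C (i, j) * -1 + τ (i, j - 1) * B (i, j) * -1 + √2 * A (i, j))) ^ 2 +
      (√2 * D (i - 1, j - 1) - (B (i - 1, j) - θ (i - 1, j) * C (i, j - 1))) ^ 2 +
      ((D (i, j) + τ (i, j - 1) * A (i, j) - √2 * B (i, j)) ^ 2 +
      (√2 * C (i + 1, j - 1) - (A (i + 1, j) - θ (i, j) * D (i, j - 1))) ^ 2) +
      ((√2 * B (i - 1, j + 1) - (θ (i - 1, j) * A (i, j + 1) + D (i - 1, j))) ^ 2 +
      (A (i, j) - -τ (i, j - 1) * D (i, j) - √2 * C (i, j)) ^ 2) +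
      ((√2 * A (i + 1, j + 1) - (θ (i, j) * B (i, j + 1) + C (i + 1, j))) ^ 2 +
      (B (i, j) - -τ (i, j - 1) * C (i, j) - √2 * D (i, j)) ^ 2) -
      ((C (i, j) + τ (i, j - 1) * B (i, j) - √2 * A (i, j)) ^ 2 +
      (D (i, j) + τ (i, j - 1) * A (i, j) - √2 * B (i, j)) ^ 2 +
      (A (i, j) + τ (i, j - 1) * D (i, j) - √2 * C (i, j)) ^ 2 +
      (B (i, j) + τ (i, j - 1) * C (i, j) - √2 * D (i, j)) ^ 2) =
      (√2 * D (i - 1, j - 1) - (B (i - 1, j) - θ (i - 1, j) * C (i, j - 1))) ^ 2 +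
      (√2 * C (i + 1, j - 1) - (A (i + 1, j) - θ (i, j) * D (i, j - 1))) ^ 2 +
      (√2 * B (i - 1, j + 1) - (θ (i - 1, j) * A (i, j + 1) + D (i - 1, j))) ^ 2 +
      (√2 * A (i + 1, j + 1) - (θ (i, j) * B (i, j + 1) + C (i + 1, j))) ^ 2 := by ring
  rw [e]
  positivity

/-- `lap Hf` at a face which has a corner outside. -/
theorem lapf_outer {f u : Site} (hu : u ∈ cnr f) (hΛ : u ∉ Λ) :
    lap Hf f ≤ 4 * ∑ v ∈ (cnr f).filter (· ∉ Λ), lap Hs v := by
  classical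
  have hS0 : 0 ≤ ∑ v ∈ (cnr f).filter (· ∉ Λ), lap Hs v :=
    sum_nonneg fun v hv => lap_out h hH (mem_filter.1 hv).2
  have hle : ∀ v ∈ cnr f, v ∉ Λ → lap Hs v ≤ ∑ v ∈ (cnr f).filter (· ∉ Λ), lap Hs v := by
    intro v hv hv'
    exact single_le_sum (f := fun v => lap Hs v) (fun v hv => lap_out h hH (mem_filter.1 hv).2)
      (mem_filter.2 ⟨hv, hv'⟩)
  -- a neighbouring face `f'`
  have key : ∀ f' w w' : Site, (∀ v ∈ cnr f, v ∈ cnr f' ∨ v = w ∨ v = w') →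
      w ∈ cnr f → w' ∈ cnr f →
      (∃ x ∈ cnr f', x = (w.1 + 1, w.2) ∨ x = (w.1 - 1, w.2) ∨ x = (w.1, w.2 + 1) ∨ x = (w.1, w.2 - 1)) →
      (∃ x ∈ cnr f', x = (w'.1 + 1, w'.2) ∨ x = (w'.1 - 1, w'.2) ∨ x = (w'.1, w'.2 + 1) ∨
        x = (w'.1, w'.2 - 1)) → Hf f' - Hf f ≤ ∑ v ∈ (cnr f).filter (· ∉ Λ), lap Hs v := by
    intro f' w w' h1 hw hw' ⟨x, hx, hx'⟩ ⟨y, hy, hy'⟩
    rcases h1 u hu with h2 | h2 | h2
    · rw [Hf_eq h hH h2 hΛ, Hf_eq h hH hu hΛ, sub_self]; exact hS0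
    · subst h2
      rw [Hf_eq h hH hu hΛ]
      linarith [Hf_le h hH f' x hx, inc_le_lap h hH hΛ hx', hle _ hw hΛ]
    · subst h2
      rw [Hf_eq h hH hu hΛ]
      linarith [Hf_le h hH f' y hy, inc_le_lap h hH hΛ hy', hle _ hw' hΛ]
  obtain ⟨i, j⟩ := f
  have k1 := key (i + 1, j) (i, j) (i, j + 1) (by
      intro v hv
      rw [mem_cnr] at hv ⊢
      rcases hv with rfl | rfl | rfl | rfl <;> simp [add_assoc])
    (by simp [mem_cnr]) (by simp [mem_cnr])
    ⟨(i + 1, j), by simp [mem_cnr], by simp⟩ ⟨(i + 1, j + 1), by simp [mem_cnr], by simp⟩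
  have k2 := key (i - 1, j) (i + 1, j) (i + 1, j + 1) (by
      intro v hv
      rw [mem_cnr] at hv ⊢
      rcases hv with rfl | rfl | rfl | rfl <;> simp)
    (by simp [mem_cnr]) (by simp [mem_cnr])
    ⟨(i, j), by simp [mem_cnr], by simp⟩ ⟨(i, j + 1), by simp [mem_cnr], by simp⟩
  have k3 := key (i, j + 1) (i, j) (i + 1, j) (by
      intro v hv
      rw [mem_cnr] at hv ⊢
      rcases hv with rfl | rfl | rfl | rfl <;> simp)
    (by simp [mem_cnr]) (by simp [mem_cnr])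
    ⟨(i, j + 1), by simp [mem_cnr], by simp⟩ ⟨(i + 1, j + 1), by simp [mem_cnr], by simp⟩
  have k4 := key (i, j - 1) (i, j + 1) (i + 1, j + 1) (by
      intro v hv
      rw [mem_cnr] at hv ⊢
      rcases hv with rfl | rfl | rfl | rfl <;> simp)
    (by simp [mem_cnr]) (by simp [mem_cnr])
    ⟨(i, j), by simp [mem_cnr], by simp⟩ ⟨(i + 1, j), by simp [mem_cnr], by simp⟩
  show Hf (i + 1, j) + Hf (i - 1, j) + Hf (i, j + 1) + Hf (i, j - 1) - 4 * Hf (i, j) ≤ _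
  linarith

end

end Vale.Agent.P144M.H
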