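import Vale.Agent.P144M.H.Disc
import Vale.Agent.P144G.Out

/-!
Masses of the `H`-function in an arbitrary finite set.
-/

set_option linter.all false

namespace Vale.Agent.P144M.H

open Finset Vale.Agent.P144 Vale.Agent.P144.AL
open Vale.Agent.P144G (oi oi_nn oi_in oi_out Exg parts exists_supp P_sub sum_P)
open Vale.Agent.P144.H170 (bx mem_bx bx_mono sq_two)
open Vale.Agent.P144.H135 (CT CT_one CT_zero CT_nonneg CT_le_one)

/-- The Laplacian of the graph on `Λ` is symmetric. -/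
theorem green_in (Λ : Finset Site) (u k : Site → ℝ) :
    ∑ v ∈ Λ, k v * (lap u v + kh Λ u v) = ∑ v ∈ Λ, u v * (lap k v + kh Λ k v) := by
  have hu : ∀ x ∉ Λ, (1 - oi Λ x) * u x = 0 := fun x hx => by rw [oi_out hx]; ring
  obtain ⟨S, hS1, hS⟩ := exists_supp (u := fun x => (1 - oi Λ x) * u x) hu
  have e1 := parts (k := fun x => (1 - oi Λ x) * k x) hu hS
  rw [← sum_subset hS1 fun w _ hw => by rw [oi_out hw]; ring] at e1
  have e2 : ∀ (f g : Site → ℝ), ∀ v ∈ Λ, g v * (lap f v + kh Λ f v) =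
      (1 - oi Λ v) * g v * lap (fun x => (1 - oi Λ x) * f x) v + P144G.kk Λ v * (f v * g v) := by
    intro f g v hv
    unfold lap kh P144G.kk
    simp only [oi_in hv]
    ring
  rw [sum_congr rfl (e2 u k), sum_congr rfl (e2 k u), sum_add_distrib, sum_add_distrib, e1]
  congr 1
  exact sum_congr rfl fun v _ => by ring

section

variable {Λ : Finset Site} {τ θ A B C D Hs Hf : Site → ℝ} {P R G : Finset Site}
  (h : Spr Λ τ θ A B C D) (hH : IsM Λ A B C D Hs Hf) (hE : Exg Λ τ θ P R G)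

include h hH hE

theorem lap_P {v : Site} (hv : v ∈ P) : -sqS A B C D v ≤ lap Hs v := by
  obtain ⟨i, j⟩ := v
  have h0 := sqS_nonneg A B C D (i, j)
  have mem := hE.inP _ hv
  have key := lap_int_lower h hH (mem (i, j) (by simp) (by simp))
    (mem (i, j + 1) (by simp) (by simp)) (mem (i, j - 1) (by simp) (by simp))
    (mem (i + 1, j) (by simp) (by simp)) (mem (i - 1, j) (by simp) (by simp))
  have e : sqS A B C D (i, j) = A (i, j) ^ 2 + B (i - 1, j) ^ 2 + C (i, j - 1) ^ 2 +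
    D (i - 1, j - 1) ^ 2 := rfl
  rw [← e] at key
  have h2 : √2 ≤ 3 / 2 := by
    rw [Real.sqrt_le_left (by norm_num)]; norm_num
  nlinarith

theorem lap_in {v : Site} (hv : v ∈ Λ) :
    -(1 / 5 * kh Λ Hs v) - (if v ∈ P then sqS A B C D v else 0) ≤ lap Hs v := by
  have h0 := kh_nn h hH v
  split_ifs with hP
  · linarith [lap_P h hH hE hP]
  · obtain ⟨i, j⟩ := v
    linarith [lap_low h hH hv (hE.θc i j hP)]

/-- The inequality for test functions. -/
theorem test0 {u : Site → ℝ} (hu : ∀ v ∈ Λ, 0 ≤ u v) :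
    4 / 5 * ∑ v ∈ Λ, u v * kh Λ Hs v - ∑ p ∈ P, u p * sqS A B C D p ≤
      ∑ v ∈ Λ, Hs v * (lap u v + kh Λ u v) := by
  rw [← green_in, ← sum_P hE, mul_sum, ← sum_sub_distrib]
  refine sum_le_sum fun v hv => ?_
  have a1 := mul_le_mul_of_nonneg_left (lap_in h hH hE hv) (hu v hv)
  have a2 : (if v ∈ P then u v * sqS A B C D v else 0) =
      u v * (if v ∈ P then sqS A B C D v else 0) := by split_ifs <;> simp
  rw [a2]
  linarith

/-- The mass outside. -/
theorem outer : ∑ v ∈ Λ, kh Λ Hs v ≤ 5 / 4 * ∑ p ∈ P, sqS A B C D p := by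
  have key := test0 h hH hE (u := fun _ => 1) fun _ _ => zero_le_one
  have e : ∀ v, lap (fun _ => (1:ℝ)) v + kh Λ (fun _ => (1:ℝ)) v = 0 := fun v => by
    unfold lap kh; ring
  simp only [e, mul_zero, sum_const_zero, one_mul] at key
  linarith

/-- Total mass of `Hs`. -/
theorem mass_s (T : Finset Site) : ∑ v ∈ T, |lap Hs v| ≤ 3 * ∑ p ∈ P, sqS A B C D p := by
  obtain ⟨K, hK⟩ := hH.far
  refine (mass_any (P := Λ) hK (fun x hx => lap_out h hH hx) T).trans ?_
  have a1 : ∑ v ∈ Λ, max 0 (-lap Hs v) ≤ ∑ v ∈ Λ, (1 / 5 * kh Λ Hs v +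
      (if v ∈ P then sqS A B C D v else 0)) := by
    refine sum_le_sum fun v hv => max_le ?_ (by linarith [lap_in h hH hE hv])
    have := kh_nn h hH v
    have : 0 ≤ (if v ∈ P then sqS A B C D v else 0) := by
      split_ifs
      · exact sqS_nonneg _ _ _ _ _
      · exact le_rfl
    positivity
  rw [sum_add_distrib, ← mul_sum, sum_P hE] at a1
  have a2 := outer h hH hE
  have a3 : 0 ≤ ∑ p ∈ P, sqS A B C D p := sum_nonneg fun _ _ => sqS_nonneg _ _ _ _ _
  linarith

theorem lapf_R {f : Site} (hf : f ∈ R) : lap Hf f ≤ sqF A B C D f := by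
  obtain ⟨i, j⟩ := f
  have h0 := sqF_nonneg A B C D (i, j)
  have mem := hE.inR _ hf
  have key := lapf_upper h hH (mem (i, j) (by simp) (by simp))
    (mem (i + 1, j) (by simp) (by simp)) (mem (i, j + 1) (by simp) (by simp))
    (mem (i + 1, j + 1) (by simp) (by simp))
  refine key.trans ?_
  unfold sqF at h0 ⊢
  have h2 : √2 ≤ 3 / 2 := by
    rw [Real.sqrt_le_left (by norm_num)]; norm_num
  nlinarith

/-- The values at a disorder. -/
theorem sqF_G {f : Site} (hf : f ∈ G) : sqF A B C D f ≤ 3 * ∑ v ∈ cnr f, |lap Hs v| := by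
  have hgood := hE.good f hf
  have hneg := hE.neg f hf
  have hin := hE.inR _ (hE.sub hf)
  obtain ⟨i, j⟩ := f
  simp only at hin hneg
  have np : ∀ x y : ℤ, ((x, y) : Site) ∈ cnr (i, j) → θ (x - 1, y) = θ (x - 1, y - 1) :=
    fun x y hxy => hE.θc x y (hgood _ hxy)
  have t1 := np i j (by simp [mem_cnr])
  have t2 := np (i + 1) j (by simp [mem_cnr])
  have t3 := np i (j + 1) (by simp [mem_cnr])
  have t4 := np (i + 1) (j + 1) (by simp [mem_cnr])
  rw [add_sub_cancel_right] at t2 t3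
  rw [add_sub_cancel_right, add_sub_cancel_right] at t4
  have key := branch_face h hH (i := i) (j := j) (fun x y h1 h2 h3 h4 =>
    hin (x, y) (by rw [abs_le]; simp only; lia) (by rw [abs_le]; simp only; lia)) t1 t2 t3 t4 hneg
  have hs : lap Hs (i, j) + lap Hs (i + 1, j) + lap Hs (i, j + 1) + lap Hs (i + 1, j + 1) ≤
      ∑ v ∈ cnr (i, j), |lap Hs v| := by
    rw [sum_cnr]
    have := le_abs_self (lap Hs (i, j))
    have := le_abs_self (lap Hs (i + 1, j))
    have := le_abs_self (lap Hs (i, j + 1))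
    have := le_abs_self (lap Hs (i + 1, j + 1))
    simp only
    linarith
  have h0 := sqF_nonneg A B C D (i, j)
  have h2 : √2 ≤ 17 / 12 := by
    rw [Real.sqrt_le_left (by norm_num)]; norm_num
  nlinarith

theorem lapf_np {f : Site} (hf : f ∉ R) (hin : ∀ u ∈ cnr f, u ∈ Λ) : lap Hf f ≤ 0 := by
  obtain ⟨i, j⟩ := f
  exact lapf_nonpos h hH (hin (i, j) (by simp [mem_cnr])) (hin (i + 1, j) (by simp [mem_cnr]))
    (hin (i, j + 1) (by simp [mem_cnr])) (hin (i + 1, j + 1) (by simp [mem_cnr])) (hE.τc i j hf)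

/-- Total mass of `Hf`. -/
theorem mass_f (T : Finset Site) : ∑ f ∈ T, |lap Hf f| ≤
    96 * ∑ p ∈ P, sqS A B C D p + 2 * ∑ f ∈ R \ G, sqF A B C D f := by
  classical
  obtain ⟨K, hK⟩ : ∃ M : ℕ, Λ ⊆ box M := (H436.subset_box Λ).exists
  have hout : ∀ x ∉ box K, -Hf x = 0 := fun x hx => by rw [zerof_box h hH hK hx, neg_zero]
  obtain ⟨S, -, hS⟩ := exists_supp (u := fun y => -Hf y) hout
  obtain ⟨S', -, hS'⟩ := exists_supp fun x hx => zero_box h hH hK hx
  have e : ∀ x, lap (fun y => -Hf y) x = -lap Hf x := fun x => by unfold lap; ring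
  have key := mass_any (u := fun y => -Hf y) (P := S) hout (fun x hx => (hS x hx).ge) T
  simp only [e, abs_neg, neg_neg] at key
  have a1 : ∀ f ∈ S, max 0 (lap Hf f) ≤ 4 * ∑ v ∈ cnr f, |lap Hs v| +
      (if f ∈ R \ G then sqF A B C D f else 0) := by
    intro f _
    have n1 : 0 ≤ ∑ v ∈ cnr f, |lap Hs v| := sum_nonneg fun _ _ => abs_nonneg _
    have n2 : 0 ≤ (if f ∈ R \ G then sqF A B C D f else 0) := by
      split_ifs
      · exact sqF_nonneg _ _ _ _ _
      · exact le_rfl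
    refine max_le (by positivity) ?_
    by_cases hR : f ∈ R
    · have b1 := lapf_R h hH hE hR
      by_cases hG : f ∈ G
      · linarith [sqF_G h hH hE hG]
      · rw [if_pos (mem_sdiff.2 ⟨hR, hG⟩)]
        linarith
    · by_cases hin : ∃ u ∈ cnr f, u ∉ Λ
      · obtain ⟨u, hu, hΛ⟩ := hin
        have b1 := lapf_outer h hH hu hΛ
        have b2 : ∑ v ∈ (cnr f).filter (· ∉ Λ), lap Hs v ≤ ∑ v ∈ cnr f, |lap Hs v| :=
          (sum_le_sum fun v _ => le_abs_self _).trans
            (sum_le_sum_of_subset_of_nonneg (filter_subset _ _) fun _ _ _ => abs_nonneg _)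
        linarith
      · push Not at hin
        linarith [lapf_np h hH hE hR hin]
  have a2 := sum_le_sum a1
  rw [sum_add_distrib, ← mul_sum, ← sum_filter] at a2
  have a3 : ∑ f ∈ S.filter (· ∈ R \ G), sqF A B C D f ≤ ∑ f ∈ R \ G, sqF A B C D f :=
    sum_le_sum_of_subset_of_nonneg (fun f hf => (mem_filter.1 hf).2)
      fun _ _ _ => sqF_nonneg _ _ _ _ _
  have a4 := sum_sum_cnr (u := fun v => |lap Hs v|) (fun v => abs_nonneg _) (T := S) (S := S')
    fun v hv => by rw [hS' v hv, abs_zero]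
  have a5 := mass_s h hH hE S'
  linarith

theorem outer_cut {c : Site} {n : ℕ} (hn : 0 < n) {κ K : ℝ} (hK : 0 ≤ K) (hP : P ⊆ bx c n)
    (hin : bx c (2 * n) ⊆ Λ) (hb : ∀ x ∈ bx c (2 * n), x ∉ bx c (n - 1) → |Hs x - κ| ≤ K) :
    ∑ v ∈ Λ, kh Λ Hs v ≤ 100 * K := by
  classical
  have key := test0 h hH hE (u := fun x => 1 - CT c n x)
    (fun v _ => by linarith [CT_le_one c n v])
  rw [sum_eq_zero (s := P) (f := fun p => (1 - CT c n p) * sqS A B C D p) fun p hp => by
    rw [CT_one hn (hP hp), sub_self, zero_mul], sub_zero] at key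
  have in0 : ∀ (u : Site → ℝ), ∀ v ∈ bx c (2 * n - 1), kh Λ u v = 0 := by
    intro u v hv
    have k : ∀ e : Site, (e = (1, 0) ∨ e = (0, 1)) → v + e ∈ Λ ∧ v - e ∈ Λ := fun e he => by
      have := H135.bx_step hv he
      rw [show 2 * n - 1 + 1 = 2 * n by lia] at this
      exact ⟨hin this.1, hin this.2⟩
    have k1 := k _ (Or.inl rfl)
    have k2 := k _ (Or.inr rfl)
    obtain ⟨i, j⟩ := v
    simp only [Prod.mk_add_mk, Prod.mk_sub_mk, add_zero, sub_zero] at k1 k2
    unfold kh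
    simp only [oi_in k1.1, oi_in k1.2, oi_in k2.1, oi_in k2.2, add_zero, zero_mul, mul_zero]
  have a1 : ∑ v ∈ Λ, (1 - CT c n v) * kh Λ Hs v = ∑ v ∈ Λ, kh Λ Hs v := by
    refine sum_congr rfl fun v _ => ?_
    by_cases hv : v ∈ bx c (2 * n - 1)
    · rw [in0 _ v hv, mul_zero]
    · rw [CT_zero hn hv]; ring
  have a0 : ∀ v, kh Λ (fun x => 1 - CT c n x) v = 0 := by
    intro v
    by_cases hv : v ∈ bx c (2 * n - 1)
    · exact in0 _ v hv
    · have k : ∀ x, oi Λ x * (1 - CT c n v - (1 - CT c n x)) = 0 := by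
        intro x
        by_cases hx : x ∈ Λ
        · rw [oi_in hx, zero_mul]
        · rw [CT_zero hn hv, CT_zero hn (x := x) fun h' => hx (hin (bx_mono (by lia) h'))]
          ring
      unfold kh
      simp only [k, add_zero]
  simp only [a0, add_zero] at key
  have e : ∀ x, lap (fun x => 1 - CT c n x) x = -H170.lap (CT c n) x := fun x => by
    rw [← H170.lap_AL]; unfold lap; ring
  have flat : ∀ x, (x ∉ bx c (2 * n) ∨ x ∈ bx c (n - 1)) → H170.lap (CT c n) x = 0 := by
    intro x hx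
    have k : ∀ e : Site, (e = (1, 0) ∨ e = (0, 1)) →
        CT c n (x + e) = CT c n x ∧ CT c n (x - e) = CT c n x := by
      intro e he
      constructor
      · by_contra h'
        have := (H135.CT_move hn he h').1
        tauto
      · by_contra h'
        have := (H135.CT_move hn he (x := x - e) (by rw [sub_add_cancel]; exact Ne.symm h')).2
        rw [sub_add_cancel] at this
        tauto
    unfold H170.lap
    rw [(k _ (Or.inl rfl)).1, (k _ (Or.inl rfl)).2, (k _ (Or.inr rfl)).1, (k _ (Or.inr rfl)).2]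
    ring
  have a2 : ∑ v ∈ Λ, H170.lap (CT c n) v = 0 := by
    have := H436.sum_lap_zero (u := CT c n) (Λ := bx c (2 * n - 1)) (S := Λ)
      (fun x hx => CT_zero hn hx) fun x hx => by
        rw [H170.lap_eq]; exact flat x (Or.inl fun h' => hx (hin h'))
    simpa only [H170.lap_eq] using this
  have a3 : ∑ v ∈ Λ, Hs v * lap (fun x => 1 - CT c n x) v ≤
      ∑ v ∈ Λ, (K * |H170.lap (CT c n) v| - κ * H170.lap (CT c n) v) := by
    refine sum_le_sum fun v _ => ?_
    rw [e]
    by_cases hv : v ∉ bx c (2 * n) ∨ v ∈ bx c (n - 1)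
    · rw [flat v hv]; simp
    · push Not at hv
      have b1 := mul_le_mul_of_nonneg_right (hb v hv.1 hv.2) (abs_nonneg (H170.lap (CT c n) v))
      rw [← abs_mul] at b1
      have b2 := neg_abs_le ((Hs v - κ) * H170.lap (CT c n) v)
      linarith
  rw [sum_sub_distrib, ← mul_sum, ← mul_sum, a2] at a3
  have a4 := mul_le_mul_of_nonneg_left (H135.sum_CT_lap (c := c) hn Λ) hK
  linarith


omit hE in
theorem sqV (i j : ℤ) :
    A (i, j + 1) ^ 2 + B (i, j + 1) ^ 2 ≤
      3 * (|Hf (i, j + 1) - Hf (i, j)| + |Hs (i + 1, j + 1) - Hs (i, j + 1)|) ∧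
    C (i, j) ^ 2 + D (i, j) ^ 2 ≤
      3 * (|Hf (i, j + 1) - Hf (i, j)| + |Hs (i + 1, j + 1) - Hs (i, j + 1)|) := by
  have ha := hH.a i (j + 1)
  have hb := hH.b i (j + 1)
  have hc := hH.c i j
  have hd := hH.d i j
  by_cases hh : ((i, j + 1) : Site) ∈ hor Λ
  · obtain ⟨h1, h2⟩ := h.V i j hh
    have ht := h.τ2 (i, j)
    set t := τ (i, j) with htt
    have s2 : √2 * √2 = 2 := Real.mul_self_sqrt (by norm_num)
    constructor
    · have e1 : Hf (i, j + 1) - Hf (i, j) = A (i, j + 1) ^ 2 + B (i, j + 1) ^ 2 -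
          2 * √2 * (t * (A (i, j + 1) * B (i, j + 1))) := by
        rw [h1] at hc
        linear_combination hc - ha + (A (i, j + 1)) ^ 2 * s2 + B (i, j + 1) ^ 2 * ht
      have e2 : Hs (i + 1, j + 1) - Hs (i, j + 1) = -(A (i, j + 1) ^ 2 - B (i, j + 1) ^ 2) := by
        linear_combination hb - ha
      rw [e1, e2, abs_neg]
      exact sq_two ht
    · have e3 : A (i, j + 1) = √2 * C (i, j) + t * D (i, j) := by
        rw [h1, h2]; linear_combination (-A (i, j + 1)) * s2 + A (i, j + 1) * ht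
      have e1 : Hf (i, j + 1) - Hf (i, j) = -(C (i, j) ^ 2 + D (i, j) ^ 2 -
          2 * √2 * (-t * (C (i, j) * D (i, j)))) := by
        rw [e3] at ha
        linear_combination hc - ha - (C (i, j)) ^ 2 * s2 - D (i, j) ^ 2 * ht
      have e2 : Hs (i + 1, j + 1) - Hs (i, j + 1) = -(C (i, j) ^ 2 - D (i, j) ^ 2) := by
        linear_combination hd - hc
      rw [e1, e2, abs_neg, abs_neg]
      exact sq_two (by rw [neg_mul_neg]; exact ht)
  · obtain ⟨h1, h2⟩ := h.V0 i j hh
    rw [h1, h2]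
    suffices hs : A (i, j + 1) ^ 2 + B (i, j + 1) ^ 2 ≤
      3 * (|Hf (i, j + 1) - Hf (i, j)| + |Hs (i + 1, j + 1) - Hs (i, j + 1)|) from ⟨hs, hs⟩
    have h3 : ((i, j + 1) : Site) ∉ Λ ∨ ((i + 1, j + 1) : Site) ∉ Λ := by
      by_contra hc
      push Not at hc
      exact hh (mem_hor.2 hc)
    have hpos := abs_nonneg (Hf (i, j + 1) - Hf (i, j))
    rcases h3 with h3 | h3
    · have hA := h.zA i (j + 1) h3
      have hHf := Hf_eq h hH (f := (i, j + 1)) (by simp [mem_cnr]) h3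
      rw [hHf] at hb
      rw [hA]
      have := le_abs_self (Hs (i + 1, j + 1) - Hs (i, j + 1))
      nlinarith [sq_nonneg (B (i, j + 1))]
    · have hB := h.zB i (j + 1) h3
      have hHf := Hf_eq h hH (f := (i, j + 1)) (by simp [mem_cnr]) h3
      rw [hHf] at ha
      rw [hB]
      have := neg_abs_le (Hs (i + 1, j + 1) - Hs (i, j + 1))
      nlinarith [sq_nonneg (A (i, j + 1))]

end

end Vale.Agent.P144M.H
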